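import Vale.Agent.P181.WC.DefsW

set_option autoImplicit false

/-! # P181, line WC, row [W1]: highest weight vectors give highest weight words -/

open scoped TensorProduct

namespace Vale.Agent.P181.WC.H267

open Finset MvPolynomial Vale.Agent.P181 Vale.Agent.P181.H280 Vale.Agent.P181.WC

variable {a b n : ℕ}

lemma XN_lt {m : ℕ} (h : m < n) : XN n m = X ⟨m, h⟩ := dif_pos h

lemma XN_ge {m : ℕ} (h : ¬ m < n) : XN n m = 0 := dif_neg h

/-- The form vanishes on words with a letter `≥ n`. -/
lemma wf_ge (l : (Fin a → Fin b → (Fin n → ℂ)) →₀ ℂ) (w : Fin a × Fin b → ℕ)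
    (p : Fin a × Fin b) (h : ¬ w p < n) : wf l w = 0 := by
  unfold wf
  apply MultilinearMap.map_coord_zero _ p.1
  exact Finset.prod_eq_zero (Finset.mem_univ p.2) (XN_ge h)

lemma wf_rowProd (l : (Fin a → Fin b → (Fin n → ℂ)) →₀ ℂ) (w : Fin a × Fin b → ℕ) :
    wf l w = rowProd b (formOf l) (fun p => XN n (w p)) := by
  rw [rowProd_apply]
  rfl

/-- The action of a matrix of the Borel subgroup on the values at monomials. -/
lemma act (lam : Fin n → ℕ) (l : (Fin a → Fin b → (Fin n → ℂ)) →₀ ℂ)
    (hx : elOf l ∈ hwSpace lam (plethAct a b n)) (c : Fin a → Fin b → Fin n)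
    (g : Matrix (Fin n) (Fin n) ℂ) (p : Fin a → Fin b → MvPolynomial (Fin n) ℂ)
    (hg : IsBorel g) (hp : ∀ i j, evL n (p i j) = fun v => (Matrix.toLin' g v) (c i j)) :
    formOf l (fun i => ∏ j, p i j) = (∏ i, g i i ^ lam i) *
      formOf l (fun i => ∏ j, X (c i j)) := by
  have h1 := formOf_lin l p (fun i j => (LinearMap.proj (c i j)) ∘ₗ Matrix.toLin' g)
    (fun i j => hp i j)
  rw [h1, ← symEval_act (Matrix.toLin' g) (fun i j => LinearMap.proj (c i j)) (elOf l)]
  have h2 : symMap a (symMap b (Matrix.toLin' g)) (elOf l) =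
      (∏ i, g i i ^ lam i) • elOf l := hx g hg
  rw [h2, map_smul, smul_eq_mul]
  congr 1
  exact (formOf_lin l (fun i j => X (c i j)) (fun i j => LinearMap.proj (c i j))
    (fun i j => evL_X _)).symm

lemma weight (lam : Fin n → ℕ) (l : (Fin a → Fin b → (Fin n → ℂ)) →₀ ℂ)
    (hx : elOf l ∈ hwSpace lam (plethAct a b n)) (c : Fin a → Fin b → Fin n)
    (hz : formOf l (fun i => ∏ j, X (c i j)) ≠ 0) (M : Fin n) :
    (Finset.univ.filter (fun p : Fin a × Fin b => c p.1 p.2 = M)).card = lam M := by
  classical
  have h3 := act lam l hx c (Matrix.diagonal (Function.update 1 M 2))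
    (fun i j => (Function.update (1 : Fin n → ℂ) M 2 (c i j)) • X (c i j)) (by
      constructor
      · intro i j hij
        exact Matrix.diagonal_apply_ne _ hij.ne'
      · intro i
        rw [Matrix.diagonal_apply_eq]
        by_cases hi : i = M
        · rw [hi, Function.update_self]; norm_num
        · rw [Function.update_of_ne hi]; norm_num) (by
      intro i j
      rw [map_smul, evL_X]
      funext v
      rw [Matrix.toLin'_apply, Matrix.mulVec_diagonal]
      rfl)
  have h4 : formOf l (fun i => ∏ j,
      (Function.update (1 : Fin n → ℂ) M 2 (c i j)) • (X (c i j) : MvPolynomial (Fin n) ℂ)) =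
      (∏ p : Fin a × Fin b, Function.update (1 : Fin n → ℂ) M 2 (c p.1 p.2)) *
        formOf l (fun i => ∏ j, X (c i j)) := by
    have h5 := MultilinearMap.map_smul_univ (rowProd b (formOf l))
      (fun p : Fin a × Fin b => Function.update (1 : Fin n → ℂ) M 2 (c p.1 p.2))
      (fun p : Fin a × Fin b => (X (c p.1 p.2) : MvPolynomial (Fin n) ℂ))
    rw [rowProd_apply, rowProd_apply, smul_eq_mul] at h5
    exact h5
  rw [h4] at h3
  have h6 := mul_right_cancel₀ hz h3
  have h7 : ∏ p : Fin a × Fin b, Function.update (1 : Fin n → ℂ) M 2 (c p.1 p.2) =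
      2 ^ (Finset.univ.filter (fun p : Fin a × Fin b => c p.1 p.2 = M)).card := by
    rw [← Finset.prod_const, Finset.prod_filter]
    apply Finset.prod_congr rfl
    intro p _
    by_cases hp : c p.1 p.2 = M
    · rw [hp, Function.update_self, if_pos rfl]
    · rw [Function.update_of_ne hp, if_neg hp]
      rfl
  have h8 : ∏ i, (Matrix.diagonal (Function.update (1 : Fin n → ℂ) M 2)) i i ^ lam i =
      2 ^ lam M := by
    rw [Finset.prod_eq_single M]
    · rw [Matrix.diagonal_apply_eq, Function.update_self]
    · intro i _ hi
      rw [Matrix.diagonal_apply_eq, Function.update_of_ne hi]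
      simp
    · intro hh
      exact absurd (Finset.mem_univ _) hh
  rw [h7, h8] at h6
  have h10 : (2 : ℕ) ^ (Finset.univ.filter
      (fun p : Fin a × Fin b => c p.1 p.2 = M)).card = 2 ^ lam M := by
    exact_mod_cast h6
  exact Nat.pow_right_injective le_rfl h10

lemma raise (lam : Fin n → ℕ) (l : (Fin a → Fin b → (Fin n → ℂ)) →₀ ℂ)
    (hx : elOf l ∈ hwSpace lam (plethAct a b n)) (c : Fin a → Fin b → Fin n)
    (M K : Fin n) (hMK : M < K) :
    ∑ p : Fin a × Fin b, rowProd b (formOf l)
      (Function.update (fun p : Fin a × Fin b => (X (c p.1 p.2) : MvPolynomial (Fin n) ℂ)) p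
        (if c p.1 p.2 = M then X K else 0)) = 0 := by
  classical
  set y : Fin a × Fin b → MvPolynomial (Fin n) ℂ := fun p => X (c p.1 p.2) with hy
  apply first_order' (rowProd b (formOf l)) y (fun p => if c p.1 p.2 = M then X K else 0)
    (formOf l (fun i => ∏ j, X (c i j)))
  intro t
  rw [rowProd_apply]
  have h3 := act lam l hx c (Matrix.transvection M K t)
    (fun i j => y (i, j) + t • (if c i j = M then X K else 0)) (by
      constructor
      · intro i j hij
        rw [Matrix.transvection, Matrix.add_apply, Matrix.one_apply_ne hij.ne',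
          Matrix.single_apply_of_ne, add_zero]
        rintro ⟨rfl, rfl⟩
        exact absurd hij (not_lt.2 hMK.le)
      · intro i
        rw [Matrix.transvection, Matrix.add_apply, Matrix.one_apply_eq,
          Matrix.single_apply_of_ne, add_zero]
        · exact one_ne_zero
        · rintro ⟨rfl, h5⟩
          exact hMK.ne h5.symm) (by
      intro i j
      simp only [y]
      rw [map_add, map_smul, evL_X]
      funext v
      rw [Matrix.toLin'_apply, Matrix.transvection, Matrix.add_mulVec, Matrix.one_mulVec]
      rw [Pi.add_apply, Pi.add_apply, Pi.smul_apply]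
      congr 1
      by_cases hp : c i j = M
      · rw [if_pos hp, evL_X, hp]
        simp [Matrix.mulVec, dotProduct, Matrix.single_apply]
      · rw [if_neg hp, map_zero]
        simp [Matrix.mulVec, dotProduct, Ne.symm hp])
  rw [h3]
  have h8 : ∏ i, (Matrix.transvection M K t) i i ^ lam i = 1 := by
    apply Finset.prod_eq_one
    intro i _
    rw [Matrix.transvection, Matrix.add_apply, Matrix.one_apply_eq,
      Matrix.single_apply_of_ne, add_zero, one_pow]
    rintro ⟨rfl, h5⟩
    exact hMK.ne h5.symm
  rw [h8, one_mul]

/-- [W1] Highest weight vectors give highest weight words. -/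
theorem w1 : W1Stmt := by
  classical
  intro a b n lam l hx
  constructor
  · intro m k hmk w
    by_cases hk : k < n
    · have hm : m < n := hmk.trans hk
      by_cases hw : ∀ p, w p < n
      · have h1 := raise lam l hx (fun i j => ⟨w (i, j), hw (i, j)⟩) ⟨m, hm⟩ ⟨k, hk⟩ hmk
        have h2 : ∀ x : Fin a × Fin b, w x = m → wf l (Function.update w x k) =
            rowProd b (formOf l) (Function.update (fun p : Fin a × Fin b =>
              (X (⟨w (p.1, p.2), hw (p.1, p.2)⟩ : Fin n) : MvPolynomial (Fin n) ℂ)) x
              (if (⟨w (x.1, x.2), hw (x.1, x.2)⟩ : Fin n) = ⟨m, hm⟩ then X ⟨k, hk⟩ else 0)) := by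
          intro x hxm
          rw [wf_rowProd]
          congr 1
          funext p
          by_cases hp : p = x
          · subst hp
            rw [Function.update_self, Function.update_self, if_pos (Fin.ext hxm), XN_lt hk]
          · rw [Function.update_of_ne hp, Function.update_of_ne hp, XN_lt (hw p)]
        rw [Finset.sum_filter]
        refine Eq.trans (Finset.sum_congr rfl ?_) h1
        intro x _
        by_cases hxm : w x = m
        · rw [if_pos hxm, h2 x hxm]
        · rw [if_neg hxm, if_neg (fun h => hxm (congrArg Fin.val h))]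
          exact (MultilinearMap.map_update_zero _ _ _).symm
      · push Not at hw
        obtain ⟨p, hp⟩ := hw
        apply Finset.sum_eq_zero
        intro x hxm
        have hxm' : w x = m := (Finset.mem_filter.1 hxm).2
        have hpx : p ≠ x := by
          rintro rfl
          omega
        apply wf_ge l (Function.update w x k) p
        rw [Function.update_of_ne hpx]
        omega
    · apply Finset.sum_eq_zero
      intro x _
      apply wf_ge l (Function.update w x k) x
      rw [Function.update_self]
      exact hk
  · intro w hw m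
    have hlt : ∀ p, w p < n := by
      intro p
      by_contra hp
      exact hw (wf_ge l w p hp)
    by_cases hm : m < n
    · simp only [dif_pos hm]
      have hz : formOf l (fun i => ∏ j, X (⟨w (i, j), hlt (i, j)⟩ : Fin n)) ≠ 0 := by
        have h1 : wf l w = formOf l (fun i => ∏ j, X (⟨w (i, j), hlt (i, j)⟩ : Fin n)) := by
          unfold wf
          congr 1
          funext i
          exact Finset.prod_congr rfl (fun j _ => XN_lt _)
        rw [← h1]
        exact hw
      rw [← weight lam l hx (fun i j => ⟨w (i, j), hlt (i, j)⟩) hz ⟨m, hm⟩]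
      congr 1
      ext p
      simp only [Finset.mem_filter, Finset.mem_univ, true_and, Fin.ext_iff]
    · simp only [dif_neg hm]
      rw [Finset.card_eq_zero, Finset.filter_eq_empty_iff]
      intro p _ hp
      exact hm (hp ▸ hlt p)

end Vale.Agent.P181.WC.H267
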